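import Crest.Agent.N250.Wi.Alg

/-!
Row 250 (helper94): Fourier coefficients of periodic functions, with a parameter.
-/

set_option autoImplicit false

open Set Filter Complex MeasureTheory
open scoped Topology

noncomputable section

namespace Crest.Agent.N250.Ra

open Crest.Agent.N250.Wi (ex)

/-- the Fourier coefficient -/
def fc (f : ℝ → ℂ) (m : ℤ) : ℂ :=
  ((2 * Real.pi : ℝ) : ℂ)⁻¹ * ∫ θ in (0 : ℝ)..2 * Real.pi, ex (-m) θ * f θ

theorem fc_norm_le {f : ℝ → ℂ} {M : ℝ} (h : ∀ θ, ‖f θ‖ ≤ M) (m : ℤ) : ‖fc f m‖ ≤ M := by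
  have h1 := intervalIntegral.norm_integral_le_of_norm_le_const (a := 0) (b := 2 * Real.pi) (C := M)
    (f := fun θ => ex (-m) θ * f θ) fun θ _ => by rw [norm_mul, Wi.norm_ex, one_mul]; exact h θ
  have h2 : 0 < 2 * Real.pi := by positivity
  rw [sub_zero, abs_of_pos h2] at h1
  rw [fc, norm_mul, norm_inv, Complex.norm_real, Real.norm_eq_abs, abs_of_pos h2, inv_mul_le_iff₀ h2]
  linarith

theorem fc_int {f : ℝ → ℂ} (hf : Continuous f) (m : ℤ) :
    IntervalIntegrable (fun θ => ex m θ * f θ) volume 0 (2 * Real.pi) :=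
  ((Wi.continuous_ex m).mul hf).intervalIntegrable _ _

theorem fc_add {f g : ℝ → ℂ} (hf : Continuous f) (hg : Continuous g) (m : ℤ) :
    fc (fun θ => f θ + g θ) m = fc f m + fc g m := by
  simp only [fc, mul_add]
  rw [intervalIntegral.integral_add (fc_int hf _) (fc_int hg _), mul_add]

theorem fc_sub {f g : ℝ → ℂ} (hf : Continuous f) (hg : Continuous g) (m : ℤ) :
    fc (fun θ => f θ - g θ) m = fc f m - fc g m := by
  simp only [fc, mul_sub]
  rw [intervalIntegral.integral_sub (fc_int hf _) (fc_int hg _), mul_sub]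

theorem fc_mul (c : ℂ) (f : ℝ → ℂ) (m : ℤ) : fc (fun θ => c * f θ) m = c * fc f m := by
  simp only [fc, mul_left_comm _ c]
  rw [intervalIntegral.integral_const_mul, mul_left_comm]

theorem fc_deriv {f f' : ℝ → ℂ} (hp : f (2 * Real.pi) = f 0) (hf : ∀ θ, HasDerivAt f (f' θ) θ)
    (hf' : Continuous f') (m : ℤ) : fc f' m = m * I * fc f m := by
  have hc : Continuous f := continuous_iff_continuousAt.2 fun θ => (hf θ).continuousAt
  have h1 := intervalIntegral.integral_mul_deriv_eq_deriv_mul (a := 0) (b := 2 * Real.pi)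
    (u := ex (-m)) (v := f) (fun θ _ => Wi.hasDerivAt_ex (-m) θ) (fun θ _ => hf θ)
    ((continuous_const.mul (Wi.continuous_ex _)).intervalIntegrable _ _) (hf'.intervalIntegrable _ _)
  have h2 : ex (-m) (2 * Real.pi) = ex (-m) 0 := by simpa using Wi.ex_periodic (-m) 0
  simp only [mul_assoc _ (ex (-m) _)] at h1
  rw [hp, h2, sub_self, zero_sub, intervalIntegral.integral_const_mul] at h1
  rw [fc, fc, h1]
  push_cast
  ring

theorem fc_hasSum {f : ℝ → ℂ} (hp : Function.Periodic f (2 * Real.pi)) (hc : Continuous f)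
    (hs : Summable (fc f)) (θ : ℝ) : HasSum (fun m => fc f m * ex m θ) (f θ) := by
  have : Fact (0 < 2 * Real.pi) := ⟨by positivity⟩
  let g : C(AddCircle (2 * Real.pi), ℂ) := ⟨hp.lift, hc.quotient_liftOn' _⟩
  have e : ∀ (m : ℤ) (x : ℝ), fourier m (x : AddCircle (2 * Real.pi)) = ex m x := fun m x => by
    rw [fourier_coe_apply, ex]
    congr 1
    have : (Real.pi : ℂ) ≠ 0 := by exact_mod_cast Real.pi_ne_zero
    push_cast
    field_simp
  have e2 : fourierCoeff g = fc f := funext fun m => by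
    rw [fourierCoeff_eq_intervalIntegral _ _ 0, zero_add, fc, one_div, Complex.real_smul,
      Complex.ofReal_inv]
    simp only [e, smul_eq_mul]
    rfl
  have := has_pointwise_sum_fourier_series_of_summable (f := g) (e2 ▸ hs) (θ : AddCircle _)
  simp only [e2, e, smul_eq_mul] at this
  exact this

theorem norm_le_tsum_fc {f : ℝ → ℂ} (hp : Function.Periodic f (2 * Real.pi)) (hc : Continuous f)
    (hs : Summable fun m => ‖fc f m‖) (θ : ℝ) : ‖f θ‖ ≤ ∑' m, ‖fc f m‖ :=
  (fc_hasSum hp hc hs.of_norm θ).norm_le_of_bounded hs.hasSum fun m => by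
    rw [norm_mul, Wi.norm_ex, mul_one]

theorem fc_hasDerivAt {F F' : ℝ → ℝ → ℂ} {U : Set ℝ} (hU : IsOpen U) {x : ℝ} (hx : x ∈ U)
    (hF : ∀ z ∈ U, Continuous (F z)) (hF' : ContinuousOn (fun q : ℝ × ℝ => F' q.1 q.2) (U ×ˢ univ))
    (hd : ∀ z ∈ U, ∀ θ, HasDerivAt (fun z => F z θ) (F' z θ) z) (m : ℤ) :
    HasDerivAt (fun z => fc (F z) m) (fc (F' x) m) x := by
  obtain ⟨ε, hε, hb⟩ := Metric.nhds_basis_closedBall.mem_iff.1 (hU.mem_nhds hx)
  obtain ⟨C, hC⟩ := ((isCompact_closedBall x ε).prod (isCompact_uIcc (a := (0 : ℝ))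
    (b := 2 * Real.pi))).exists_bound_of_continuousOn (hF'.mono (prod_mono hb (subset_univ _)))
  have hc : Continuous (F' x) :=
    hF'.comp_continuous (f := fun θ => (x, θ)) (by fun_prop) fun θ => ⟨hx, mem_univ _⟩
  refine HasDerivAt.const_mul _ (intervalIntegral.hasDerivAt_integral_of_dominated_loc_of_deriv_le
    (F := fun z θ => ex (-m) θ * F z θ) (F' := fun z θ => ex (-m) θ * F' z θ) (bound := fun _ => C)
    (Metric.closedBall_mem_nhds x hε) ?_ (fc_int (hF x hx) _)
    ((Wi.continuous_ex _).mul hc).aestronglyMeasurable (ae_of_all _ fun θ hθ z hz => ?_)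
    intervalIntegrable_const (ae_of_all _ fun θ _ z hz => (hd z (hb hz) θ).const_mul _)).2
  · filter_upwards [hU.mem_nhds hx] with z hz
    exact ((Wi.continuous_ex _).mul (hF z hz)).aestronglyMeasurable
  · rw [norm_mul, Wi.norm_ex, one_mul]
    exact hC (z, θ) ⟨hz, uIoc_subset_uIcc hθ⟩

/-- a summable majorant -/
def maj (m : ℤ) : ℝ := 1 / (1 + (m : ℝ) ^ 2)

theorem maj_pos (m : ℤ) : 0 < maj m := by unfold maj; positivity

theorem summable_maj : Summable maj := by
  have h1 : Summable fun m : ℤ => 1 / (m : ℝ) ^ 2 := Real.summable_one_div_int_pow.2 (by norm_num)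
  refine h1.of_norm_bounded_eventually ?_
  filter_upwards [(finite_singleton (0 : ℤ)).compl_mem_cofinite] with m hm
  have : (m : ℝ) ≠ 0 := by exact_mod_cast hm
  rw [Real.norm_eq_abs, abs_of_pos (maj_pos m), maj]
  exact one_div_le_one_div_of_le (by positivity) (by linarith)

/-- two derivatives give summable coefficients -/
theorem fc_le_maj {f f1 f2 : ℝ → ℂ} {M : ℝ} (hp : f (2 * Real.pi) = f 0) (hp1 : f1 (2 * Real.pi) = f1 0)
    (hf : ∀ θ, HasDerivAt f (f1 θ) θ) (hf1 : ∀ θ, HasDerivAt f1 (f2 θ) θ) (hc : Continuous f2)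
    (h0 : ∀ θ, ‖f θ‖ ≤ M) (h2 : ∀ θ, ‖f2 θ‖ ≤ M) (m : ℤ) : ‖fc f m‖ ≤ 2 * M * maj m := by
  have a0 := fc_norm_le h0 m
  have a2 := fc_norm_le h2 m
  rw [fc_deriv hp1 hf1 hc, fc_deriv hp hf
    (continuous_iff_continuousAt.2 fun θ => (hf1 θ).continuousAt)] at a2
  simp only [norm_mul, Complex.norm_intCast, Complex.norm_I, mul_one, ← mul_assoc,
    abs_mul_abs_self] at a2
  rw [maj, mul_one_div, le_div_iff₀ (by positivity)]
  nlinarith

end Crest.Agent.N250.Ra
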