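import Crest.Agent.N250.Ra.End

/-!
Row 250 (helper94): the `x`-derivative gains one more power of `x`.
-/

set_option autoImplicit false

open Set Filter
open scoped Topology ContDiff

noncomputable section

namespace Crest.Agent.N250.Ra

variable {f w : ℝ × ℝ → ℝ} {q : ℝ × ℝ} {R : ℝ}

theorem jet_fst (k : ℕ) (q : ℝ × ℝ) :
    ‖iteratedFDeriv ℝ k (fun q : ℝ × ℝ => q.1) q‖ ≤ if k = 0 then |q.1| else 1 := by
  rcases k with _ | k
  · simp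
  rw [if_neg (Nat.succ_ne_zero k), ← norm_iteratedFDeriv_fderiv,
    show fderiv ℝ (fun q : ℝ × ℝ => q.1) = fun _ => ContinuousLinearMap.fst ℝ ℝ ℝ from
      funext fun _ => fderiv_fst]
  rcases eq_or_ne k 0 with rfl | hk
  · rw [norm_iteratedFDeriv_zero]; exact ContinuousLinearMap.norm_fst_le ..
  · rw [iteratedFDeriv_const_of_ne hk]; simp

/-- Leibniz rule for the factor `x` -/
theorem jet_x_mul (h : Sm R f) (hq : R < q.1) (h1 : 1 ≤ q.1) (k : ℕ) {M : ℝ}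
    (hM : ∀ i ≤ k, ‖iteratedFDeriv ℝ i f q‖ ≤ M) :
    ‖iteratedFDeriv ℝ k (fun q => q.1 * f q) q‖ ≤ 2 ^ k * (q.1 * M) := by
  have ho : IsOpen {q : ℝ × ℝ | R < q.1} := isOpen_lt continuous_const continuous_fst
  have h2 := norm_iteratedFDerivWithin_mul_le (𝕜 := ℝ) (f := fun q : ℝ × ℝ => q.1) (g := f) (N := ∞)
    (s := {q : ℝ × ℝ | R < q.1})
    contDiffOn_fst (fun z hz => (h z hz).contDiffWithinAt) ho.uniqueDiffOn hq (n := k)
    (by exact_mod_cast le_top)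
  have e : ∀ (i : ℕ) (u : ℝ × ℝ → ℝ), iteratedFDerivWithin ℝ i u {q : ℝ × ℝ | R < q.1} q =
      iteratedFDeriv ℝ i u q := fun i u => iteratedFDerivWithin_of_isOpen i ho hq
  simp only [e] at h2
  refine h2.trans ?_
  have h3 : ((2 : ℝ)) ^ k = ∑ i ∈ Finset.range (k + 1), (k.choose i : ℝ) := by
    exact_mod_cast (Nat.sum_range_choose k).symm
  rw [h3, Finset.sum_mul]
  refine Finset.sum_le_sum fun i _ => ?_
  rw [mul_assoc]
  refine mul_le_mul_of_nonneg_left (mul_le_mul ((jet_fst i q).trans ?_) (hM _ (Nat.sub_le _ _))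
    (norm_nonneg _) (by linarith)) (by positivity)
  split_ifs
  · rw [abs_of_nonneg (by linarith)]
  · exact h1

/-- all orders up to `k` at once -/
theorem upto {g : ℝ} (h : ∀ k : ℕ, ∃ C x₀ : ℝ, ∀ q : ℝ × ℝ, x₀ ≤ q.1 →
      ‖iteratedFDeriv ℝ k w q‖ ≤ C * q.1 ^ (-g)) (R : ℝ) (k : ℕ) :
    ∃ C x₀ : ℝ, 0 < C ∧ 1 ≤ x₀ ∧ R < x₀ ∧ ∀ i ≤ k, ∀ q : ℝ × ℝ, x₀ ≤ q.1 →
      ‖iteratedFDeriv ℝ i w q‖ ≤ C * q.1 ^ (-g) := by
  choose C x₀ hC using h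
  refine ⟨1 + ∑ i ∈ Finset.range (k + 1), |C i|, max 1 (R + 1) + ∑ i ∈ Finset.range (k + 1), |x₀ i|,
    by positivity, le_add_of_le_of_nonneg (le_max_left _ _) (by positivity),
    lt_add_of_lt_of_nonneg (lt_max_of_lt_right (lt_add_one R)) (by positivity), fun i hi q hq => ?_⟩
  have h1 := Finset.single_le_sum (f := fun i => |C i|) (fun i _ => abs_nonneg _)
    (Finset.mem_range.2 (Nat.lt_succ_of_le hi))
  have h2 := Finset.single_le_sum (f := fun i => |x₀ i|) (fun i _ => abs_nonneg _)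
    (Finset.mem_range.2 (Nat.lt_succ_of_le hi))
  have h3 := le_max_left 1 (R + 1)
  have h4 : 0 < q.1 := by linarith [abs_nonneg (x₀ i)]
  exact (hC i q (by linarith [le_abs_self (x₀ i)])).trans
    (mul_le_mul_of_nonneg_right (by linarith [le_abs_self (C i)]) (by positivity))

/-- the jets of `x w_x` decay at the same rate as those of `w` -/
theorem rate_dx (h : Sm R w) (hp : Per w)
    (hr : ∀ g : ℝ, 0 ≤ g → g < 2 → ∀ k : ℕ, ∃ C x₀ : ℝ, ∀ q : ℝ × ℝ, x₀ ≤ q.1 →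
      ‖iteratedFDeriv ℝ k w q‖ ≤ C * q.1 ^ (-g))
    (heq : ∃ C s₀ : ℝ, ∀ q : ℝ × ℝ, s₀ < q.1 → |Lw w q| ≤
      C * (|w q| + ‖iteratedFDeriv ℝ 1 w q‖ + ‖iteratedFDeriv ℝ 2 w q‖))
    {g : ℝ} (hg0 : 0 ≤ g) (hg : g < 2) (k : ℕ) : ∃ C x₀ : ℝ, ∀ q : ℝ × ℝ, x₀ ≤ q.1 →
      ‖iteratedFDeriv ℝ k (fun q => q.1 * dd (1, 0) w q) q‖ ≤ C * q.1 ^ (-g) := by
  have hs : Sm R fun q => q.1 * dd (1, 0) w q := fun q hq => contDiffAt_fst.mul (h.dd _ q hq)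
  have hp' : Per fun q : ℝ × ℝ => q.1 * dd (1, 0) w q := fun s θ => by simp only [hp.dd _ s θ]
  have hb : ∀ j, ∃ C : ℝ, ∀ q : ℝ × ℝ, R + 1 ≤ q.1 →
      ‖iteratedFDeriv ℝ j (fun q => q.1 * dd (1, 0) w q) q‖ ≤ C := fun j => by
    obtain ⟨C, x₀, h0, h1, h2, hC⟩ := upto (hr 1 zero_le_one (by norm_num)) R (j + 1)
    refine hs.bdd hp' (lt_add_one R) j (s₀ := x₀) (c := 2 ^ j * C) fun q hq => ?_
    have h3 : 0 < q.1 := by linarith
    refine (jet_x_mul (h.dd _) (h2.trans hq) (h1.trans hq.le) j fun i hi =>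
      (norm_dd (h q (h2.trans hq)) _ n10 i).trans (hC (i + 1) (by omega) q hq.le)).trans (le_of_eq ?_)
    rw [Real.rpow_neg_one]; field_simp
  set g1 := (g + 2) / 2 with hg1
  have hg10 : 0 < g1 := by linarith
  obtain ⟨Ck, ck, hCk⟩ := interp (ContinuousLinearMap.fst ℝ ℝ ℝ) (a₀ := R + 1)
    (fun q hq => hs q ((lt_add_one R).trans_le hq)) hb (θ := g / g1) (by rw [div_lt_one hg10]; linarith) k
  simp only [ContinuousLinearMap.coe_fst'] at hCk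
  obtain ⟨C, x₀, h0, h1, h2, hC⟩ := upto (hr g1 hg10.le (by linarith)) (R + 1) 2
  obtain ⟨C', s₀, heq⟩ := heq
  set K := (6 + 6 * |C'|) * C with hK
  have hK0 : 0 < K := by positivity
  have hv : ∀ q : ℝ × ℝ, x₀ ≤ q.1 → s₀ < q.1 → ‖q.1 * dd (1, 0) w q‖ ≤ K * q.1 ^ (-g1) := fun q a1 a2 => by
    have a := h q (by linarith)
    have b0 := hC 0 (by omega) q a1
    have b1 := hC 1 (by omega) q a1
    have b2 := hC 2 le_rfl q a1
    rw [norm_iteratedFDeriv_zero, Real.norm_eq_abs] at b0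
    have c1 := abs_le.1 ((abs_dd2 a _ _ n10 n10).trans b2)
    have c2 := abs_le.1 ((abs_dd2 a _ _ n01 n01).trans b2)
    have c3 := abs_le.1 ((heq q a2).trans (mul_le_mul (le_abs_self C')
      (add_le_add (add_le_add b0 b1) b2) (by positivity) (abs_nonneg _)))
    have c0 := abs_le.1 b0
    have c4 : 0 ≤ C * q.1 ^ (-g1) := (abs_nonneg _).trans b0
    rw [Lw] at c3
    rw [Real.norm_eq_abs, hK, mul_assoc, abs_le]
    constructor <;> nlinarith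
  obtain ⟨a₂, ha₂⟩ := eventually_atTop.1 (((tendsto_rpow_neg_atTop hg10).const_mul K).eventually
    (gt_mem_nhds (show K * 0 < 1 by simp)))
  refine ⟨Ck * K ^ (g / g1), max x₀ (max (s₀ + 1) a₂), fun q hq => ?_⟩
  simp only [max_le_iff] at hq
  have hq0 : 0 < q.1 := by linarith [hq.1]
  have := hCk q.1 (by linarith [hq.1]) (K * q.1 ^ (-g1)) (by positivity) (ha₂ _ hq.2.2).le (fun z hz =>
    (hv z (hq.1.trans hz) (by linarith [hq.2.1])).trans (mul_le_mul_of_nonneg_left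
      (Real.rpow_le_rpow_of_nonpos hq0 hz (by linarith)) hK0.le)) q le_rfl
  rwa [Real.mul_rpow hK0.le (by positivity), ← Real.rpow_mul hq0.le,
    show -g1 * (g / g1) = -g by field_simp, ← mul_assoc] at this

/-- `w = r² / 2 - 1` on the end `j` -/
def wE {S : Mv} (e : Ends S) (j : Fin e.p) (q : ℝ × ℝ) : ℝ := e.r j q ^ 2 / 2 - 1

variable {S : Mv}

theorem sm_wE (e : Ends S) (j : Fin e.p) : Sm e.R (wE e j) :=
  sm_of ((((e.sm j).pow 2).div_const 2).sub contDiffOn_const)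

theorem per_wE (e : Ends S) (j : Fin e.p) : Per (wE e j) := fun s θ => by simp only [wE, e.per j s θ]

theorem quad_wE (hS : S.IsShr) (e : Ends S) (j : Fin e.p) {q : ℝ × ℝ} (hq : e.R < q.1) {N : ℝ}
    (hN : N ≤ 1 / 4) (h : ∀ i ≤ 2, ‖iteratedFDeriv ℝ i (wE e j) q‖ ≤ N) :
    |Lw (wE e j) q| ≤ 20 * N ^ 2 := by
  have a := sm_wE e j q hq
  have b0 := h 0 (by omega)
  rw [norm_iteratedFDeriv_zero, Real.norm_eq_abs] at b0
  have c1 := fun u hu => (abs_dd a u hu).trans (h 1 (by omega))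
  have c2 := fun u u' hu hu' => (abs_dd2 a u u' hu hu').trans (h 2 le_rfl)
  have e1 : ∀ u, dd u (wE e j) = dd u fun q => e.r j q ^ 2 / 2 := fun u => dd_sub_one u _
  simp only [Lw, e1] at c1 c2 ⊢
  exact EL_quad (vt := dd (0, 1) _ q) (vxt := dd (1, 0) (dd (0, 1) _) q) hN b0 (c1 _ n10) (c1 _ n01)
    (c2 _ _ n10 n10) (c2 _ _ n10 n01) (c2 _ _ n01 n01) (Po.ends_EL hS e j hq)

/-- **rates on the ends of a shrinker**: `w` and `x w_x` -/
theorem ends_rate2 (hS : S.IsShr) (e : Ends S) (j : Fin e.p) {g : ℝ} (hg0 : 0 ≤ g) (hg : g < 2)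
    (k : ℕ) : ∃ C x₀ : ℝ, 0 < C ∧ 1 ≤ x₀ ∧ e.R < x₀ ∧ ∀ i ≤ k, ∀ q : ℝ × ℝ, x₀ ≤ q.1 →
      ‖iteratedFDeriv ℝ i (wE e j) q‖ ≤ C * q.1 ^ (-g) ∧
      ‖iteratedFDeriv ℝ i (fun q => q.1 * dd (1, 0) (wE e j) q) q‖ ≤ C * q.1 ^ (-g) := by
  have hr : ∀ g : ℝ, 0 ≤ g → g < 2 → ∀ k : ℕ, ∃ C x₀ : ℝ, ∀ q : ℝ × ℝ, x₀ ≤ q.1 →
      ‖iteratedFDeriv ℝ k (wE e j) q‖ ≤ C * q.1 ^ (-g) := fun g a b k => ends_rate hS e j a b k
  obtain ⟨C, x₀, h0, h1, h2, hC⟩ := upto (hr g hg0 hg) e.R k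
  obtain ⟨C', x₁, a0, a1, a2, hC'⟩ := upto (rate_dx (sm_wE e j) (per_wE e j) hr (by
    obtain ⟨s0, h0⟩ := lim_sq (e.sm j) (e.per j) (e.lim j) 0 (1 / 12) (by norm_num)
    obtain ⟨s1, h1⟩ := lim_sq (e.sm j) (e.per j) (e.lim j) 1 (1 / 12) (by norm_num)
    obtain ⟨s2, h2⟩ := lim_sq (e.sm j) (e.per j) (e.lim j) 2 (1 / 12) (by norm_num)
    refine ⟨5, max (max e.R s0) (max s1 s2), fun q hq => ?_⟩
    simp only [max_lt_iff] at hq
    have b0 : ‖iteratedFDeriv ℝ 0 (wE e j) q‖ ≤ 1 / 12 := h0 q hq.1.2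
    have b1 : ‖iteratedFDeriv ℝ 1 (wE e j) q‖ ≤ 1 / 12 := h1 q hq.2.1
    have b2 : ‖iteratedFDeriv ℝ 2 (wE e j) q‖ ≤ 1 / 12 := h2 q hq.2.2
    have n0 := norm_nonneg (iteratedFDeriv ℝ 0 (wE e j) q)
    have n1 := norm_nonneg (iteratedFDeriv ℝ 1 (wE e j) q)
    have n2 := norm_nonneg (iteratedFDeriv ℝ 2 (wE e j) q)
    have := quad_wE hS e j hq.1.1 (N := ‖iteratedFDeriv ℝ 0 (wE e j) q‖ +
      ‖iteratedFDeriv ℝ 1 (wE e j) q‖ + ‖iteratedFDeriv ℝ 2 (wE e j) q‖) (by linarith) fun i hi => by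
        interval_cases i <;> linarith
    rw [← Real.norm_eq_abs (wE e j q), ← norm_iteratedFDeriv_zero (𝕜 := ℝ) (f := wE e j)]
    nlinarith) hg0 hg) e.R k
  refine ⟨max C C', max x₀ x₁, by positivity, h1.trans (le_max_left _ _), h2.trans_le (le_max_left _ _),
    fun i hi q hq => ?_⟩
  simp only [max_le_iff] at hq
  have : 0 < q.1 := by linarith [hq.1]
  exact ⟨(hC i hi q hq.1).trans (mul_le_mul_of_nonneg_right (le_max_left _ _) (by positivity)),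
    (hC' i hi q hq.2).trans (mul_le_mul_of_nonneg_right (le_max_right _ _) (by positivity))⟩

end Crest.Agent.N250.Ra
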