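import Crest.Agent.N250.Ra.Rate
import Crest.Agent.N250.Po.Pol
import Crest.Agent.N250.E.PJ

/-!
Row 250 (helper94): the rate on the cylindrical ends of a shrinker, and of its Fourier modes.
-/

set_option autoImplicit false

open Set Filter
open scoped Topology ContDiff

noncomputable section

namespace Crest.Agent.N250.Ra

open Crest.Agent.N221.Ex

theorem am {a b A B : ℝ} (ha : |a| ≤ A) (hb : |b| ≤ B) : |a * b| ≤ A * B := by
  rw [abs_mul]; exact mul_le_mul ha hb (abs_nonneg _) ((abs_nonneg _).trans ha)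

theorem aa {a b A B : ℝ} (ha : |a| ≤ A) (hb : |b| ≤ B) : |a + b| ≤ A + B :=
  (abs_add_le _ _).trans (add_le_add ha hb)

theorem as {a b A B : ℝ} (ha : |a| ≤ A) (hb : |b| ≤ B) : |a - b| ≤ A + B :=
  (abs_sub _ _).trans (add_le_add ha hb)

/-- the equation is linear up to quadratic terms -/
theorem EL_quad {x v vx vt vxx vxt vtt N : ℝ} (hN : N ≤ 1 / 4) (h0 : |v - 1| ≤ N) (h1 : |vx| ≤ N)
    (h2 : |vt| ≤ N) (h3 : |vxx| ≤ N) (h4 : |vxt| ≤ N) (h5 : |vtt| ≤ N)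
    (h : Po.EL x v vx vt vxx vxt vtt = 0) : |vxx - x / 2 * vx + (v - 1) + vtt / 2| ≤ 20 * N ^ 2 := by
  have hv : 3 / 4 ≤ v := by linarith [(abs_le.1 h0).1]
  have hv0 : 0 < v := by linarith
  have hN0 : 0 ≤ N := (abs_nonneg _).trans h0
  have hQ : 1 ≤ Po.QQ v vx vt := by
    have : 0 ≤ vt ^ 2 / (2 * v) := by positivity
    rw [Po.QQ]; nlinarith [sq_nonneg vx]
  have hu : |v⁻¹| ≤ 2 := by
    rw [abs_of_pos (by positivity), inv_le_comm₀ hv0 two_pos]; linarith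
  have hj : |(Po.QQ v vx vt)⁻¹| ≤ 1 := by
    rw [abs_of_pos (by positivity)]; exact inv_le_one_of_one_le₀ hQ
  have b1 : |vx| ≤ 1 / 4 := h1.trans hN
  have b2 : |vt| ≤ 1 / 4 := h2.trans hN
  have b3 : |vxx| ≤ 1 / 4 := h3.trans hN
  have c : |(1 / 2 : ℝ)| ≤ 1 / 2 := by norm_num
  have e : vxx - x / 2 * vx + (v - 1) + vtt / 2 = 1 / 2 * v⁻¹ * (vtt * (v - 1)) +
      (Po.QQ v vx vt)⁻¹ * (vx * vx + vxx * (vx * vx) + 1 / 2 * v⁻¹ * vx * (vt * vxt) -
        1 / 2 * (1 / 2) * v⁻¹ * v⁻¹ * vx * vx * (vt * vt) + 1 / 2 * v⁻¹ * (vt * vt +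
          vx * (vt * vxt) + 1 / 2 * v⁻¹ * vt * (vt * vtt) -
            1 / 2 * (1 / 2) * v⁻¹ * v⁻¹ * vt * vt * (vt * vt))) +
      1 / 2 * (1 / 2) * v⁻¹ * v⁻¹ * (vt * vt) := by
    rw [← sub_eq_zero, ← h, Po.EL]
    have : Po.QQ v vx vt ≠ 0 := by linarith
    field_simp
    ring
  rw [e]
  refine (aa (aa (am (am c hu) (am h5 h0)) (am hj (aa (as (aa (aa (am h1 h1) (am b3 (am h1 h1)))
    (am (am (am c hu) b1) (am h2 h4))) (am (am (am (am (am (am c c) hu) hu) b1) b1) (am h2 h2)))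
    (am (am c hu) (as (aa (aa (am h2 h2) (am b1 (am h2 h4))) (am (am (am c hu) b2) (am h2 h5)))
      (am (am (am (am (am (am c c) hu) hu) b2) b2) (am h2 h2)))))))
    (am (am (am (am c c) hu) hu) (am h2 h2))).trans ?_
  nlinarith [sq_nonneg N]

variable {r w : ℝ × ℝ → ℝ} {R : ℝ}

/-- the jets of `r² / 2 - 1` tend to zero -/
theorem lim_sq (hr : ContDiffOn ℝ ∞ r {q | R < q.1}) (hp : Per r)
    (hl : ∀ (k : ℕ) (δ : ℝ), 0 < δ → ∃ s₀ : ℝ, ∀ q : ℝ × ℝ, s₀ < q.1 →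
      ‖iteratedFDeriv ℝ k (fun q => r q - √2) q‖ ≤ δ) (k : ℕ) (δ : ℝ) (hδ : 0 < δ) :
    ∃ s₀ : ℝ, ∀ q : ℝ × ℝ, s₀ < q.1 → ‖iteratedFDeriv ℝ k (fun q => r q ^ 2 / 2 - 1) q‖ ≤ δ := by
  have h1 : ContDiffOn ℝ ∞ (fun q => r q - √2) {q | R < q.1} := hr.sub contDiffOn_const
  have h2 : UB (fun _ : Unit => {q : ℝ × ℝ | R + 1 < q.1}) fun _ q => r q - √2 :=
    ⟨fun _ => isOpen_lt continuous_const continuous_fst,
      fun _ => h1.mono fun q (hq : R + 1 < q.1) => show R < q.1 by linarith, fun k => by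
      obtain ⟨s, hs⟩ := hl k 1 one_pos
      obtain ⟨C, hC⟩ := (sm_of h1).bdd (fun s θ => by simp only [hp s θ]) (lt_add_one R) k hs
      exact ⟨max C 1, by positivity, fun _ q hq => (hC q (le_of_lt hq)).trans (le_max_left _ _)⟩⟩
  have h3 := h2.smooth (Φ := fun t : ℝ => (t + √2) ^ 2 / 2 - 1) (by fun_prop)
  simp only [sub_add_cancel] at h3
  obtain ⟨s, hs⟩ := EP.jets_small (f := fun _ : Unit => fun q => r q ^ 2 / 2 - 1)
    (s := fun _ q => q.1) (R := R + 1) (fun _ x z => by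
      have := (le_abs_self _).trans (norm_fst_le (x - z))
      rw [Prod.fst_sub] at this
      linarith) (fun i x hx => h3.at (i := i) hx) (fun k => by
      obtain ⟨c, -, hc⟩ := h3.bd k
      exact ⟨c, R + 2, fun i x hx => hc i x (show R + 1 < x.1 by linarith)⟩) (fun ε hε => by
      obtain ⟨s, hs⟩ := hl 0 (min 1 (ε / 2)) (by positivity)
      refine ⟨s + 1, fun _ x hx => ?_⟩
      have h4 := hs x (by linarith)
      rw [norm_iteratedFDeriv_zero, Real.norm_eq_abs, le_min_iff] at h4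
      have h5 : r x ^ 2 / 2 - 1 = (r x - √2) * ((r x - √2) / 2 + √2) := by
        linear_combination (1 / 2) * Real.sq_sqrt (show (0 : ℝ) ≤ 2 by norm_num)
      have h6 : |(r x - √2) / 2 + √2| ≤ 2 := by
        have : √2 < (3 / 2 : ℝ) := (Real.sqrt_lt' (by norm_num)).2 (by norm_num)
        have := Real.sqrt_nonneg 2
        have := abs_le.1 h4.1
        rw [abs_le]; constructor <;> linarith
      rw [Real.norm_eq_abs, h5]
      linarith [am h4.2 h6]) k δ hδ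
  exact ⟨s, fun q hq => hs () q hq.le⟩

theorem dd_sub_one (u : ℝ × ℝ) (v : ℝ × ℝ → ℝ) : dd u (fun q => v q - 1) = dd u v :=
  funext fun q => by simp only [dd, fderiv_sub_const]

/-- the rate for solutions of the polar equation -/
theorem rate_EL {v : ℝ × ℝ → ℝ} (hv : ContDiffOn ℝ ∞ v {q | R < q.1}) (hp : Per v)
    (hl : ∀ (k : ℕ) (δ : ℝ), 0 < δ → ∃ s₀ : ℝ, ∀ q : ℝ × ℝ, s₀ < q.1 →
      ‖iteratedFDeriv ℝ k (fun q => v q - 1) q‖ ≤ δ)
    (he : ∀ q : ℝ × ℝ, R < q.1 → Po.ELv v q = 0) {g : ℝ} (hg0 : 0 ≤ g) (hg : g < 2) (k : ℕ) :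
    ∃ C x₀ : ℝ, ∀ q : ℝ × ℝ, x₀ ≤ q.1 →
      ‖iteratedFDeriv ℝ k (fun q => v q - 1) q‖ ≤ C * q.1 ^ (-g) := by
  have hw : ContDiffOn ℝ ∞ (fun q => v q - 1) {q | R < q.1} := hv.sub contDiffOn_const
  refine rate hw (fun s θ => by simp only [hp s θ]) hl ?_ hg0 hg k
  obtain ⟨s0, h0⟩ := hl 0 (1 / 12) (by norm_num)
  obtain ⟨s1, h1⟩ := hl 1 (1 / 12) (by norm_num)
  obtain ⟨s2, h2⟩ := hl 2 (1 / 12) (by norm_num)
  refine ⟨20, max (max R s0) (max s1 s2), fun q hq => ?_⟩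
  simp only [max_lt_iff] at hq
  have a := sm_of hw q hq.1.1
  have b0 := h0 q hq.1.2
  rw [norm_iteratedFDeriv_zero, Real.norm_eq_abs] at b0
  have c1 := fun u hu => abs_dd a u hu
  have c2 := fun u u' hu hu' => abs_dd2 a u u' hu hu'
  simp only [dd_sub_one] at c1 c2
  have n0 := abs_nonneg (v q - 1)
  have n1 := norm_nonneg (iteratedFDeriv ℝ 1 (fun q => v q - 1) q)
  have n2 := norm_nonneg (iteratedFDeriv ℝ 2 (fun q => v q - 1) q)
  simp only [Lw, dd_sub_one]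
  exact EL_quad (vt := dd (0, 1) v q) (vxt := dd (1, 0) (dd (0, 1) v) q) (by linarith [h1 q hq.2.1, h2 q hq.2.2]) (by linarith) (by linarith [c1 _ n10])
    (by linarith [c1 _ n01]) (by linarith [c2 _ _ n10 n10]) (by linarith [c2 _ _ n10 n01])
    (by linarith [c2 _ _ n01 n01]) (he q hq.1.1)

/-- **the rate on the ends of a shrinker** -/
theorem ends_rate {S : Mv} (hS : S.IsShr) (e : Ends S) (j : Fin e.p) {g : ℝ} (hg0 : 0 ≤ g)
    (hg : g < 2) (k : ℕ) : ∃ C x₀ : ℝ, ∀ q : ℝ × ℝ, x₀ ≤ q.1 →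
      ‖iteratedFDeriv ℝ k (fun q => e.r j q ^ 2 / 2 - 1) q‖ ≤ C * q.1 ^ (-g) :=
  rate_EL (v := fun q => e.r j q ^ 2 / 2) (((e.sm j).pow 2).div_const 2)
    (fun s θ => by simp only [e.per j s θ]) (lim_sq (e.sm j) (e.per j) (e.lim j))
    (fun _ hq => Po.ends_EL hS e j hq) hg0 hg k

/-- all orders up to `k` at once -/
theorem ends_rate' {S : Mv} (hS : S.IsShr) (e : Ends S) (j : Fin e.p) {g : ℝ} (hg0 : 0 ≤ g)
    (hg : g < 2) (k : ℕ) : ∃ C x₀ : ℝ, 0 < C ∧ 0 < x₀ ∧ e.R < x₀ ∧ ∀ i ≤ k, ∀ q : ℝ × ℝ, x₀ ≤ q.1 →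
      ‖iteratedFDeriv ℝ i (fun q => e.r j q ^ 2 / 2 - 1) q‖ ≤ C * q.1 ^ (-g) := by
  induction k with
  | zero =>
    obtain ⟨C, x₀, h⟩ := ends_rate hS e j hg0 hg 0
    refine ⟨max C 1, max x₀ (max 1 (e.R + 1)), by positivity, by positivity,
      by linarith [le_max_right x₀ (max 1 (e.R + 1)), le_max_right 1 (e.R + 1)], fun i hi q hq => ?_⟩
    obtain rfl : i = 0 := by omega
    simp only [max_le_iff] at hq
    have : 0 < q.1 := by linarith [hq.2.1]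
    exact (h q hq.1).trans (mul_le_mul_of_nonneg_right (le_max_left _ _) (by positivity))
  | succ k ih =>
    obtain ⟨C, x₀, h⟩ := ends_rate hS e j hg0 hg (k + 1)
    obtain ⟨C', x₁, h1, h2, h3, h'⟩ := ih
    refine ⟨max C C', max x₀ x₁, by positivity, by positivity, h3.trans_le (le_max_right _ _),
      fun i hi q hq => ?_⟩
    simp only [max_le_iff] at hq
    have : 0 < q.1 := by linarith [hq.2]
    rcases Nat.lt_or_ge i (k + 1) with hi' | hi'
    · exact (h' i (by omega) q hq.2).trans (mul_le_mul_of_nonneg_right (le_max_right _ _) (by positivity))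
    · obtain rfl : i = k + 1 := by omega
      exact (h q hq.1).trans (mul_le_mul_of_nonneg_right (le_max_left _ _) (by positivity))

/-- decay of the Fourier coefficients -/
theorem Sm.fc_decay {x M : ℝ} (hx : R < x) (m : ℤ) (k : ℕ) : ∀ {w : ℝ × ℝ → ℝ}, Sm R w → Per w →
    (∀ j ≤ k, ∀ θ, ‖iteratedFDeriv ℝ j w (x, θ)‖ ≤ M) →
    (1 + |(m : ℝ)|) ^ k * ‖fc (cs w x) m‖ ≤ 2 ^ k * M := by
  induction k with
  | zero =>
    intro w _ _ hM
    simpa using fc_norm_le (fun θ => by simpa [cs] using hM 0 le_rfl θ) m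
  | succ k ih =>
    intro w h hp hM
    have h1 := ih h hp fun j hj => hM j (by omega)
    have h2 := ih (h.dd (0, 1)) (hp.dd _) fun j hj θ =>
      (norm_dd (h (x, θ) hx) _ n01 j).trans (hM (j + 1) (by omega) θ)
    rw [h.fc_dt hp hx, norm_mul, norm_mul, Complex.norm_I, mul_one, Complex.norm_intCast] at h2
    rw [pow_succ, pow_succ]
    nlinarith

end Crest.Agent.N250.Ra
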