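import Crest.Agent.N250.B1.Max

/-!
Row 250 (helper94): decay for `y'' = (x/2) y' + V y + f` on a half line.
-/

set_option autoImplicit false

open Set Filter
open scoped Topology

namespace Crest.Agent.N250.Ra

open Crest.Agent.N250.B1

theorem anti_nonneg {f f' : ℝ → ℝ} {a : ℝ} (hf : ∀ x, a ≤ x → HasDerivAt f (f' x) x)
    (h : ∀ x, a ≤ x → f' x ≤ 0) (h0 : Tendsto f atTop (𝓝 0)) {x : ℝ} (hx : a ≤ x) : 0 ≤ f x := by
  have ha : AntitoneOn f (Ici a) := antitoneOn_of_deriv_nonpos (convex_Ici a)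
    (fun y hy => (hf y hy).continuousAt.continuousWithinAt)
    (fun y hy => (hf y (interior_subset hy)).differentiableAt.differentiableWithinAt)
    fun y hy => by rw [(hf y (interior_subset hy)).deriv]; exact h y (interior_subset hy)
  exact le_of_tendsto h0 ((eventually_ge_atTop x).mono fun y hy => ha hx (hx.trans hy) hy)

theorem gauss_sq : Tendsto (fun x : ℝ => Real.exp (-x ^ 2 / 4) * x ^ 2) atTop (𝓝 0) := by
  have h1 : Tendsto (fun x : ℝ => x ^ 2 / 4) atTop atTop :=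
    (tendsto_pow_atTop two_ne_zero).atTop_div_const (by norm_num)
  have h2 := ((Real.tendsto_pow_mul_exp_neg_atTop_nhds_zero 1).comp h1).const_mul 4
  rw [mul_zero] at h2
  refine h2.congr fun x => ?_
  simp only [Function.comp_apply, neg_div]
  ring

/-- the slow modes: a bounded solution tending to zero is controlled by the source -/
theorem low_re {y y1 f J J1 : ℝ → ℝ} {a κ M B : ℝ} (ha : 1 ≤ a) (hM : 0 ≤ M)
    (hy : ∀ x, a ≤ x → HasDerivAt y (y1 x) x)
    (hy1 : ∀ x, a ≤ x → HasDerivAt y1 (x / 2 * y1 x - κ * y x + f x) x)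
    (hJ : ∀ x, HasDerivAt J (J1 x) x) (hJ1 : ∀ x, HasDerivAt J1 (x / 2 * J1 x - κ * J x) x)
    (b1 : ∀ x, a ≤ x → x ≤ J x ∧ J x ≤ x ^ 2 ∧ J1 x ≤ x ^ 2 ∧ J x ≤ x * J1 x ∧ J1 x ≤ x * J x / 4)
    (hB : ∀ x, a ≤ x → |y x| ≤ B ∧ |y1 x| ≤ B) (hf : ∀ x, a ≤ x → f x ≤ M) {x : ℝ} (hx : a ≤ x) :
    y x ≤ 4 * M := by
  have hE : ∀ x : ℝ, HasDerivAt (fun x : ℝ => Real.exp (-x ^ 2 / 4))
      (Real.exp (-x ^ 2 / 4) * (-x / 2)) x := fun x => by
    have := (((hasDerivAt_pow 2 x).fun_neg).div_const 4).exp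
    convert this using 2
    simp; ring
  have hp : ∀ x, a ≤ x → 0 < x ∧ 0 < J x ∧ 0 < J1 x := fun x hx => by
    have h0 : 0 < x := by linarith
    have h1 : 0 < J x := h0.trans_le (b1 x hx).1
    exact ⟨h0, h1, (pos_iff_pos_of_mul_pos (h1.trans_le (b1 x hx).2.2.2.1)).1 h0⟩
  have hW : ∀ x, a ≤ x → 0 ≤ Real.exp (-x ^ 2 / 4) * (y1 x * J x - y x * J1 x + M * (4 * J x / x)) := by
    intro x hx
    refine anti_nonneg (f := fun x => Real.exp (-x ^ 2 / 4) *
      (y1 x * J x - y x * J1 x + M * (4 * J x / x))) (fun z hz => (hE z).fun_mul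
        ((((hy1 z hz).fun_mul (hJ z)).fun_sub ((hy z hz).fun_mul (hJ1 z))).fun_add
          ((((hJ z).const_mul 4).fun_div (hasDerivAt_id' z) (hp z hz).1.ne').const_mul M)))
      (fun z hz => ?_) ?_ hx
    · obtain ⟨h0, h1, h2⟩ := hp z hz
      have h3 : (4 * J1 z * z - 4 * J z * 1) / z ^ 2 ≤ J z := by
        rw [div_le_iff₀ (by positivity)]
        nlinarith [(b1 z hz).2.2.2.2]
      have h4 : Real.exp (-z ^ 2 / 4) * (-z / 2) * (y1 z * J z - y z * J1 z + M * (4 * J z / z)) +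
          Real.exp (-z ^ 2 / 4) * ((z / 2 * y1 z - κ * y z + f z) * J z + y1 z * J1 z -
            (y1 z * J1 z + y z * (z / 2 * J1 z - κ * J z)) + M * ((4 * J1 z * z - 4 * J z * 1) / z ^ 2)) =
          Real.exp (-z ^ 2 / 4) * (f z * J z - 2 * M * J z + M * ((4 * J1 z * z - 4 * J z * 1) / z ^ 2)) := by
        field_simp; ring
      rw [h4]
      refine mul_nonpos_of_nonneg_of_nonpos (Real.exp_pos _).le ?_
      nlinarith [mul_le_mul_of_nonneg_left h3 hM, mul_le_mul_of_nonneg_right (hf z hz) h1.le]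
    · have h1 := gauss_sq.const_mul (2 * B + 4 * M)
      rw [mul_zero] at h1
      refine squeeze_zero_norm' ((eventually_ge_atTop a).mono fun z hz => ?_) h1
      obtain ⟨h0, h2, h3⟩ := hp z hz
      obtain ⟨c1, c2, c3, -, -⟩ := b1 z hz
      obtain ⟨d1, d2⟩ := hB z hz
      have hB0 : 0 ≤ B := (abs_nonneg _).trans d1
      rw [Real.norm_eq_abs, abs_mul, abs_of_pos (Real.exp_pos _), mul_left_comm]
      refine mul_le_mul_of_nonneg_left ?_ (Real.exp_pos _).le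
      have e1 : |y1 z * J z| ≤ B * z ^ 2 := by
        rw [abs_mul, abs_of_pos h2]; exact mul_le_mul d2 c2 h2.le hB0
      have e2 : |y z * J1 z| ≤ B * z ^ 2 := by
        rw [abs_mul, abs_of_pos h3]; exact mul_le_mul d1 c3 h3.le hB0
      have e3 : 4 * J z / z ≤ 4 * z ^ 2 := by
        rw [div_le_iff₀ h0]; nlinarith [sq_nonneg z]
      have e4 : 0 ≤ 4 * J z / z := by positivity
      rw [abs_le] at e1 e2 ⊢
      constructor <;> nlinarith [mul_le_mul_of_nonneg_left e3 hM, mul_nonneg hM e4]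
  have hZ : 0 ≤ (4 * M - y x) / J x := by
    refine anti_nonneg (f := fun x => (4 * M - y x) / J x) (fun z hz =>
      ((hy z hz).const_sub (4 * M)).fun_div (hJ z) (hp z hz).2.1.ne') (fun z hz => ?_) ?_ hx
    · obtain ⟨h0, h1, h2⟩ := hp z hz
      refine div_nonpos_of_nonpos_of_nonneg ?_ (sq_nonneg _)
      have h3 := (mul_nonneg_iff_of_pos_left (Real.exp_pos _)).1 (hW z hz)
      have h4 : 4 * J z / z ≤ 4 * J1 z := by
        rw [div_le_iff₀ h0]; nlinarith [(b1 z hz).2.2.2.1]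
      nlinarith [mul_le_mul_of_nonneg_left h4 hM]
    · have h1 := tendsto_inv_atTop_zero.const_mul (4 * M + B)
      rw [mul_zero] at h1
      refine squeeze_zero_norm' ((eventually_ge_atTop a).mono fun z hz => ?_) h1
      obtain ⟨h0, h2, -⟩ := hp z hz
      have d1 := (hB z hz).1
      have hB0 : 0 ≤ B := (abs_nonneg _).trans d1
      rw [Real.norm_eq_abs, abs_div, abs_of_pos h2, ← div_eq_mul_inv]
      refine div_le_div₀ (by positivity) ?_ h0 (b1 z hz).1
      rw [abs_le] at d1 ⊢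
      constructor <;> linarith
  have := (div_nonneg_iff.1 hZ).resolve_right fun h => absurd h.2 (not_le.2 (hp x hx).2.1)
  linarith [this.1]

/-- modes `0` (`κ = 1`) and `±1` (`κ = 1/2`) -/
theorem low {y y1 f : ℝ → ℂ} {a κ M B : ℝ} (ha : 4 ≤ a) (hκ : κ = 1 ∨ κ = 1 / 2)
    (hy : ∀ x, a ≤ x → HasDerivAt y (y1 x) x)
    (hy1 : ∀ x, a ≤ x → HasDerivAt y1 ((x / 2 : ℝ) * y1 x - κ * y x + f x) x)
    (hB : ∀ x, a ≤ x → ‖y x‖ ≤ B ∧ ‖y1 x‖ ≤ B) (hf : ∀ x, a ≤ x → ‖f x‖ ≤ M) {x : ℝ} (hx : a ≤ x) :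
    ‖y x‖ ≤ 4 * M := by
  obtain ⟨c, hc, e⟩ := exists_rot (y x)
  have hM : 0 ≤ M := (norm_nonneg _).trans (hf a le_rfl)
  have hre : ∀ {u : ℝ → ℂ} {u1 : ℂ} {z : ℝ}, HasDerivAt u u1 z →
      HasDerivAt (fun z => (c * u z).re) (c * u1).re z := fun h =>
    Complex.reCLM.hasFDerivAt.comp_hasDerivAt _ (h.const_mul c)
  have hab : ∀ z : ℂ, |(c * z).re| ≤ ‖z‖ := fun z => abs_le.2 ⟨neg_le_re_mul hc, re_mul_le hc⟩
  have key : ∀ J J1 : ℝ → ℝ, (∀ x, HasDerivAt J (J1 x) x) →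
      (∀ x, HasDerivAt J1 (x / 2 * J1 x - κ * J x) x) →
      (∀ x, a ≤ x → x ≤ J x ∧ J x ≤ x ^ 2 ∧ J1 x ≤ x ^ 2 ∧ J x ≤ x * J1 x ∧ J1 x ≤ x * J x / 4) →
      (c * y x).re ≤ 4 * M := fun J J1 h1 h2 h3 =>
    low_re (y := fun z => (c * y z).re) (y1 := fun z => (c * y1 z).re) (f := fun z => (c * f z).re)
      (B := B) (by linarith) hM (fun z hz => hre (hy z hz)) (fun z hz => by
        convert hre (hy1 z hz) using 1
        simp only [mul_add, mul_sub, Complex.add_re, Complex.sub_re, mul_left_comm c,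
          Complex.re_ofReal_mul]) h1 h2 h3
      (fun z hz => ⟨(hab _).trans (hB z hz).1, (hab _).trans (hB z hz).2⟩)
      (fun z hz => (re_mul_le hc).trans (hf z hz)) hx
  rw [e, Complex.ofReal_re] at key
  rcases hκ with rfl | rfl
  · refine key (fun x => x ^ 2 - 2) (fun x => 2 * x) (fun x => ?_) (fun x => ?_) fun x hx => ?_
    · simpa using (hasDerivAt_pow 2 x).sub_const 2
    · exact ((hasDerivAt_id' x).const_mul 2).congr_deriv (by ring)
    · have : 4 ≤ x := ha.trans hx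
      have h1 : 16 ≤ x ^ 2 := by nlinarith
      refine ⟨by nlinarith, by linarith, by nlinarith, by nlinarith, by nlinarith⟩
  · refine key (fun x => x) (fun _ => 1) (fun x => hasDerivAt_id' x) (fun x => ?_) fun x hx => ?_
    · exact (hasDerivAt_const x (1 : ℝ)).congr_deriv (by ring)
    · have : 4 ≤ x := ha.trans hx
      refine ⟨le_rfl, by nlinarith, by nlinarith, by linarith, by nlinarith⟩

/-- the fast modes -/
theorem high {y y1 f : ℝ → ℂ} {a V g M : ℝ} (ha : 0 < a) (hV : 1 ≤ V) (hg : 0 ≤ g)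
    (hga : g * (g + 1) ≤ (1 - g / 2) * a ^ 2) (hy : ∀ x, a ≤ x → HasDerivAt y (y1 x) x)
    (hy1 : ∀ x, a ≤ x → HasDerivAt y1 ((x / 2 : ℝ) * y1 x + V * y x + f x) x)
    (h0 : Tendsto y atTop (𝓝 0)) (hf : ∀ x, a ≤ x → ‖f x‖ ≤ M) {x : ℝ} (hx : a ≤ x) :
    ‖y x‖ ≤ ‖y a‖ * a ^ g * x ^ (-g) + M / V := by
  have hM : 0 ≤ M := (norm_nonneg _).trans (hf a le_rfl)
  refine le_of_forall_pos_le_add fun ε hε => ?_
  obtain ⟨b, hb1, hb2⟩ := ((eventually_gt_atTop x).and
    (h0.norm.eventually (gt_mem_nhds (show ‖(0 : ℂ)‖ < ε by simpa using hε)))).exists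
  set A := ‖y a‖ * a ^ g with hA
  have hA0 : 0 ≤ A := by positivity
  have hp : ∀ z ∈ Icc a b, 0 < z := fun z hz => ha.trans_le hz.1
  have := max2 (w := y) (w1 := y1) (g := f) (V := fun _ => V) (B := fun x => x / 2)
    (Ω := fun x => A * x ^ (-g) + M / V + ε) (Ω1 := fun x => A * (-g * x ^ (-g - 1)))
    (Ω2 := fun x => A * (-g * ((-g - 1) * x ^ (-g - 1 - 1)))) (γ := fun _ => M + ε) (M := 1)
    (hx.trans_lt hb1) (Dv.of_hasDerivAt fun z hz => hy z hz.1)
    (Dv.of_hasDerivAt fun z hz => hy1 z hz.1)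
    (Dv.of_hasDerivAt fun z hz => (((Real.hasDerivAt_rpow_const
      (Or.inl (hp z hz).ne')).const_mul A).add_const _).add_const _)
    (Dv.of_hasDerivAt fun z hz => ((Real.hasDerivAt_rpow_const
      (Or.inl (hp z hz).ne')).const_mul (-g)).const_mul A)
    (fun z hz => by have := hp z hz; positivity) (fun _ _ => by positivity) (fun z hz => ?_)
    (fun z hz => by linarith [hf z hz.1.le]) ?_ (Or.inl ?_) x ⟨hx, hb1.le⟩
  · linarith
  · have hz0 := hp z (Ioo_subset_Icc_self hz)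
    have e1 : z ^ (-g - 1) = z ^ (-g) / z := Real.rpow_sub_one hz0.ne' _
    have e2 : z ^ (-g - 1 - 1) = z ^ (-g) / z / z := by rw [Real.rpow_sub_one hz0.ne', e1]
    have h1 : g * (g + 1) / z ^ 2 ≤ 1 - g / 2 := by
      have h2 : 0 ≤ 1 - g / 2 := by
        by_contra h
        push Not at h
        nlinarith [mul_neg_of_neg_of_pos h (pow_pos ha 2), mul_nonneg hg (by linarith : 0 ≤ g + 1)]
      rw [div_le_iff₀ (by positivity)]
      exact hga.trans (mul_le_mul_of_nonneg_left (pow_le_pow_left₀ ha.le hz.1.le 2) h2)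
    have h3 : A * (-g * ((-g - 1) * z ^ (-g - 1 - 1))) - z / 2 * (A * (-g * z ^ (-g - 1))) -
        V * (A * z ^ (-g) + M / V + ε) =
        A * z ^ (-g) * (g * (g + 1) / z ^ 2 + g / 2 - V) - M - V * ε := by
      rw [e1, e2]; field_simp; ring
    simp only [Complex.ofReal_re]
    rw [h3]
    have h4 : 0 ≤ A * z ^ (-g) := by positivity
    nlinarith [mul_nonneg h4 (show 0 ≤ -(g * (g + 1) / z ^ 2 + g / 2 - V) by linarith)]
  · have : A * a ^ (-g) = ‖y a‖ := by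
      rw [hA, mul_assoc, ← Real.rpow_add ha, add_neg_cancel, Real.rpow_zero, mul_one]
    have h1 : 0 ≤ M / V := by positivity
    linarith
  · have h1 : 0 ≤ M / V := by positivity
    have h2 : 0 ≤ A * b ^ (-g) := by have := hp b ⟨hx.trans hb1.le, le_rfl⟩; positivity
    linarith

end Crest.Agent.N250.Ra
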