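import Crest.Agent.N250.Ra.Ode
import Crest.Agent.N250.Ra.Fou
import Crest.Agent.N250.Ra.Lan

/-!
Row 250 (helper94): the a priori rate `x ^ (-g)`, `g < 2`, on a cylindrical end.
-/

set_option autoImplicit false

open Set Filter
open scoped Topology ContDiff

noncomputable section

namespace Crest.Agent.N250.Ra

/-- directional derivative -/
def dd (v : ℝ × ℝ) (g : ℝ × ℝ → ℝ) (q : ℝ × ℝ) : ℝ := fderiv ℝ g q v

/-- `2π`-periodic in the second variable -/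
def Per {Y : Type} (g : ℝ × ℝ → Y) : Prop := ∀ s θ, g (s, θ + 2 * Real.pi) = g (s, θ)

/-- the slice as a complex function -/
def cs (g : ℝ × ℝ → ℝ) (x θ : ℝ) : ℂ := g (x, θ)

/-- the linear part of the equation -/
def Lw (w : ℝ × ℝ → ℝ) (q : ℝ × ℝ) : ℝ :=
  dd (1, 0) (dd (1, 0) w) q - q.1 / 2 * dd (1, 0) w q + w q + dd (0, 1) (dd (0, 1) w) q / 2

variable {g w : ℝ × ℝ → ℝ} {q : ℝ × ℝ} {R : ℝ}

theorem sm_dd (h : ContDiffAt ℝ ∞ g q) (v : ℝ × ℝ) : ContDiffAt ℝ ∞ (dd v g) q :=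
  (h.fderiv_right (by simp)).clm_apply contDiffAt_const

theorem norm_dd (h : ContDiffAt ℝ ∞ g q) (v : ℝ × ℝ) (hv : ‖v‖ = 1) (k : ℕ) :
    ‖iteratedFDeriv ℝ k (dd v g) q‖ ≤ ‖iteratedFDeriv ℝ (k + 1) g q‖ := by
  have h1 := (ContinuousLinearMap.apply ℝ ℝ v).norm_iteratedFDeriv_comp_left
    (h.fderiv_right (m := ∞) (by simp)) (n := k) (by exact_mod_cast le_top)
  rw [norm_iteratedFDeriv_fderiv] at h1
  have h2 : ‖ContinuousLinearMap.apply ℝ ℝ v‖ ≤ 1 :=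
    ContinuousLinearMap.opNorm_le_bound _ zero_le_one fun L => by
      simpa [hv] using L.le_opNorm v
  exact h1.trans (mul_le_of_le_one_left (norm_nonneg _) h2)

theorem abs_dd (h : ContDiffAt ℝ ∞ g q) (v : ℝ × ℝ) (hv : ‖v‖ = 1) :
    |dd v g q| ≤ ‖iteratedFDeriv ℝ 1 g q‖ := by simpa using norm_dd h v hv 0

theorem abs_dd2 (h : ContDiffAt ℝ ∞ g q) (u v : ℝ × ℝ) (hu : ‖u‖ = 1) (hv : ‖v‖ = 1) :
    |dd u (dd v g) q| ≤ ‖iteratedFDeriv ℝ 2 g q‖ := (abs_dd (sm_dd h v) u hu).trans (norm_dd h v hv 1)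

theorem n10 : ‖((1, 0) : ℝ × ℝ)‖ = 1 := by simp
theorem n01 : ‖((0, 1) : ℝ × ℝ)‖ = 1 := by simp

theorem Per.fun_eq {Y : Type} {g : ℝ × ℝ → Y} (h : Per g) :
    (fun z => g (z + (0, 2 * Real.pi))) = g := funext fun z => by
  rw [← h z.1 z.2]; congr 1; ext <;> simp

theorem Per.dd (h : Per g) (v : ℝ × ℝ) : Per (dd v g) := fun s θ => by
  have := fderiv_comp_add_right (𝕜 := ℝ) (f := g) (x := (s, θ)) (0, 2 * Real.pi)
  rw [h.fun_eq] at this
  simp only [Ra.dd, this, Prod.mk_add_mk, add_zero]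

theorem Per.jet (h : Per g) (k : ℕ) : Per (iteratedFDeriv ℝ k g) := fun s θ => by
  have := iteratedFDeriv_comp_add_right (𝕜 := ℝ) (f := g) k (0, 2 * Real.pi) (s, θ)
  rw [h.fun_eq] at this
  simp only [this, Prod.mk_add_mk, add_zero]

theorem Per.cs (h : Per g) (x : ℝ) : Function.Periodic (cs g x) (2 * Real.pi) := fun θ => by
  simp only [Ra.cs, h x θ]

theorem Per.cs0 (h : Per g) (x : ℝ) : Ra.cs g x (2 * Real.pi) = Ra.cs g x 0 := (h.cs x).eq

theorem cs_dx {x θ : ℝ} (h : ContDiffAt ℝ ∞ g (x, θ)) :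
    HasDerivAt (fun x => cs g x θ) (cs (dd (1, 0) g) x θ) x :=
  (HasFDerivAt.comp_hasDerivAt x (f := fun x => (x, θ)) (h.differentiableAt (by simp)).hasFDerivAt
    ((hasDerivAt_id' x).prodMk (hasDerivAt_const x θ))).ofReal_comp

theorem cs_dt {x θ : ℝ} (h : ContDiffAt ℝ ∞ g (x, θ)) :
    HasDerivAt (cs g x) (cs (dd (0, 1) g) x θ) θ :=
  (HasFDerivAt.comp_hasDerivAt θ (f := fun θ => (x, θ)) (h.differentiableAt (by simp)).hasFDerivAt
    ((hasDerivAt_const θ x).prodMk (hasDerivAt_id' θ))).ofReal_comp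

/-- smooth on the open half plane -/
def Sm (R : ℝ) (g : ℝ × ℝ → ℝ) : Prop := ∀ q : ℝ × ℝ, R < q.1 → ContDiffAt ℝ ∞ g q

theorem sm_of (h : ContDiffOn ℝ ∞ g {q | R < q.1}) : Sm R g := fun _ hq =>
  h.contDiffAt ((isOpen_lt continuous_const continuous_fst).mem_nhds hq)

theorem Sm.dd (h : Sm R g) (v : ℝ × ℝ) : Sm R (dd v g) := fun q hq => sm_dd (h q hq) v

theorem Sm.cont (h : Sm R g) {x : ℝ} (hx : R < x) : Continuous (cs g x) :=
  continuous_iff_continuousAt.2 fun θ => (cs_dt (h (x, θ) hx)).continuousAt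

theorem Sm.fc_dx (h : Sm R g) {x : ℝ} (hx : R < x) (m : ℤ) :
    HasDerivAt (fun x => fc (cs g x) m) (fc (cs (Ra.dd (1, 0) g) x) m) x :=
  fc_hasDerivAt isOpen_Ioi hx (fun _ hz => h.cont hz) (fun q hq =>
    (Complex.continuous_ofReal.continuousAt.comp (h.dd (1, 0) q hq.1).continuousAt).continuousWithinAt)
    (fun z hz θ => cs_dx (h (z, θ) hz)) m

theorem Sm.fc_dt (h : Sm R g) (hp : Per g) {x : ℝ} (hx : R < x) (m : ℤ) :
    fc (cs (Ra.dd (0, 1) g) x) m = m * Complex.I * fc (cs g x) m :=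
  fc_deriv (hp.cs0 x) (fun θ => cs_dt (h (x, θ) hx)) ((h.dd _).cont hx) m

theorem Sm.fc_le (h : Sm R g) (hp : Per g) {x M : ℝ} (hx : R < x)
    (h0 : ∀ θ, ‖iteratedFDeriv ℝ 0 g (x, θ)‖ ≤ M) (h2 : ∀ θ, ‖iteratedFDeriv ℝ 2 g (x, θ)‖ ≤ M)
    (m : ℤ) : ‖fc (cs g x) m‖ ≤ 2 * M * maj m :=
  fc_le_maj (hp.cs0 x) ((hp.dd _).cs0 x) (fun θ => cs_dt (h (x, θ) hx))
    (fun θ => cs_dt (h.dd _ (x, θ) hx)) (((h.dd _).dd _).cont hx)
    (fun θ => by simpa [cs] using h0 θ) (fun θ => by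
      simpa [cs] using (abs_dd2 (h (x, θ) hx) _ _ n01 n01).trans (h2 θ)) m

/-- the equation of the modes -/
theorem Sm.mode (h : Sm R w) (hp : Per w) {x : ℝ} (hx : R < x) (m : ℤ) :
    fc (cs (Ra.dd (1, 0) (Ra.dd (1, 0) w)) x) m = (x / 2 : ℝ) * fc (cs (Ra.dd (1, 0) w) x) m +
      ((m : ℝ) ^ 2 / 2 - 1 : ℝ) * fc (cs w x) m + fc (cs (Lw w) x) m := by
  have e : cs (Lw w) x = fun θ => cs (Ra.dd (1, 0) (Ra.dd (1, 0) w)) x θ -
      ((x / 2 : ℝ) : ℂ) * cs (Ra.dd (1, 0) w) x θ + cs w x θ +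
        (1 / 2 : ℂ) * cs (Ra.dd (0, 1) (Ra.dd (0, 1) w)) x θ := by
    funext θ; simp only [cs, Lw]; push_cast; ring
  have c0 := h.cont hx
  have c1 := (h.dd (1, 0)).cont hx
  have c2 := ((h.dd (1, 0)).dd (1, 0)).cont hx
  have c3 := ((h.dd (0, 1)).dd (0, 1)).cont hx
  rw [e, fc_add (by fun_prop) (by fun_prop), fc_add (by fun_prop) c0, fc_sub c2 (by fun_prop), fc_mul,
    fc_mul, (h.dd _).fc_dt (hp.dd _) hx, h.fc_dt hp hx]
  push_cast
  linear_combination (-(m : ℂ) ^ 2 / 2 * fc (cs w x) m) * Complex.I_mul_I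

/-- eventually bounded jets of a periodic function are bounded -/
theorem Sm.bdd (h : Sm R w) (hp : Per w) {a : ℝ} (ha : R < a) (k : ℕ) {s₀ c : ℝ}
    (hb : ∀ q : ℝ × ℝ, s₀ < q.1 → ‖iteratedFDeriv ℝ k w q‖ ≤ c) :
    ∃ C : ℝ, ∀ q : ℝ × ℝ, a ≤ q.1 → ‖iteratedFDeriv ℝ k w q‖ ≤ C := by
  obtain ⟨C, hC⟩ := ((isCompact_Icc (a := a) (b := s₀)).prod
    (isCompact_Icc (a := (0 : ℝ)) (b := 2 * Real.pi))).exists_bound_of_continuousOn
    (f := iteratedFDeriv ℝ k w) fun q hq =>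
      ((h q (ha.trans_le hq.1.1)).continuousAt_iteratedFDeriv (by exact_mod_cast le_top)).continuousWithinAt
  refine ⟨max c C, fun q hq => ?_⟩
  rcases lt_or_ge s₀ q.1 with h1 | h1
  · exact (hb q h1).trans (le_max_left _ _)
  · obtain ⟨θ, hθ, e⟩ := Function.Periodic.exists_mem_Ico₀
      (f := fun θ => iteratedFDeriv ℝ k w (q.1, θ)) (hp.jet k q.1) (by positivity) q.2
    exact (le_of_eq (congrArg norm e)).trans
      ((hC (q.1, θ) ⟨⟨hq, h1⟩, hθ.1, hθ.2.le⟩).trans (le_max_right _ _))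

theorem iter {ν : ℝ → ℝ} {a₀ K g g' : ℝ} (ha : 0 < a₀) (hK : 0 < K) (hg : 0 ≤ g') (hgg : g' < g)
    (h0 : ∀ μ > 0, ∃ a, ∀ x, a ≤ x → ν x ≤ μ)
    (hs : ∀ a, a₀ ≤ a → ∀ μ, 0 < μ → μ ≤ 1 → (∀ x, a ≤ x → ν x ≤ μ) → ∀ x, a ≤ x →
      ν x ≤ μ * a ^ g * x ^ (-g) + K * (μ * √μ)) :
    ∃ C a₁ : ℝ, 0 < C ∧ ∀ x, a₁ ≤ x → ν x ≤ C * x ^ (-g') := by
  set Λ : ℝ := 2 ^ (1 / (g - g')) with hΛ
  have hΛ1 : 1 < Λ := Real.one_lt_rpow (by norm_num) (by have := sub_pos.2 hgg; positivity)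
  have hΛ0 : 0 < Λ := by linarith
  set l : ℝ := Λ ^ (-g') with hl
  have hl0 : 0 < l := by positivity
  have hl1 : l ≤ 1 := Real.rpow_le_one_of_one_le_of_nonpos hΛ1.le (by linarith)
  have e1 : Λ ^ (-g) = l / 2 := by
    have : Λ ^ (g - g') = 2 := by
      rw [hΛ, ← Real.rpow_mul (by norm_num), one_div_mul_cancel (sub_pos.2 hgg).ne', Real.rpow_one]
    rw [hl, ← this, ← Real.rpow_sub hΛ0]; congr 1; ring
  set μ₀ := min 1 ((l / (2 * K)) ^ 2) with hμ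
  have hμ0 : 0 < μ₀ := lt_min one_pos (by positivity)
  obtain ⟨a, ha1⟩ := h0 μ₀ hμ0
  set a₁ := max a a₀ with ha₁
  have ha0 : 0 < a₁ := ha.trans_le (le_max_right _ _)
  have key : ∀ n : ℕ, ∀ x, a₁ * Λ ^ n ≤ x → ν x ≤ μ₀ * l ^ n := by
    intro n
    induction n with
    | zero =>
      intro x hx
      rw [pow_zero, mul_one] at hx ⊢
      exact ha1 x ((le_max_left a a₀).trans hx)
    | succ n ih =>
      intro x hx
      have h1 : 1 ≤ Λ ^ n := one_le_pow₀ hΛ1.le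
      have h2 : μ₀ * l ^ n ≤ μ₀ := mul_le_of_le_one_right hμ0.le (pow_le_one₀ hl0.le hl1)
      have h3 : 0 < a₁ * Λ ^ n := by positivity
      rw [pow_succ, ← mul_assoc] at hx
      have h4 := hs (a₁ * Λ ^ n) ((le_max_right _ _).trans (le_mul_of_one_le_right ha0.le h1))
        (μ₀ * l ^ n) (by positivity) (h2.trans (min_le_left _ _)) ih x
        ((le_mul_of_one_le_right h3.le hΛ1.le).trans hx)
      have h5 : (a₁ * Λ ^ n) ^ g * x ^ (-g) ≤ l / 2 := by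
        have := Real.rpow_le_rpow_of_nonpos (by positivity) hx (show -g ≤ 0 by linarith)
        rw [Real.mul_rpow h3.le hΛ0.le, e1] at this
        refine (mul_le_mul_of_nonneg_left this (by positivity)).trans (le_of_eq ?_)
        rw [← mul_assoc, ← Real.rpow_add h3, add_neg_cancel, Real.rpow_zero, one_mul]
      have h6 : K * √(μ₀ * l ^ n) ≤ l / 2 := by
        have : √(μ₀ * l ^ n) ≤ l / (2 * K) :=
          Real.sqrt_le_iff.2 ⟨by positivity, h2.trans (min_le_right _ _)⟩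
        calc K * √(μ₀ * l ^ n) ≤ K * (l / (2 * K)) := by gcongr
          _ = l / 2 := by field_simp
      have h7 : 0 < μ₀ * l ^ n := by positivity
      rw [pow_succ, ← mul_assoc]
      nlinarith [mul_le_mul_of_nonneg_left h5 h7.le, mul_le_mul_of_nonneg_left h6 h7.le]
  refine ⟨μ₀ * (a₁ * Λ) ^ g', a₁, by positivity, fun x hx => ?_⟩
  obtain ⟨n, h1, h2⟩ := exists_nat_pow_near ((one_le_div ha0).2 hx) hΛ1
  have hx0 : 0 < x := ha0.trans_le hx
  refine (key n x (by rwa [le_div_iff₀' ha0] at h1)).trans ?_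
  rw [mul_assoc]
  refine mul_le_mul_of_nonneg_left ?_ hμ0.le
  have h3 : x / (a₁ * Λ) ≤ Λ ^ n := by
    rw [div_lt_iff₀' ha0, pow_succ] at h2
    rw [div_le_iff₀ (by positivity)]
    nlinarith
  have h4 := Real.rpow_le_rpow_of_nonpos (by positivity) h3 (show -g' ≤ 0 by linarith)
  rw [Real.div_rpow hx0.le (by positivity), Real.rpow_neg (by positivity : 0 ≤ a₁ * Λ),
    div_inv_eq_mul, mul_comm, ← Real.rpow_pow_comm hΛ0.le] at h4
  exact h4

/-- one mode -/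
theorem mode_le (h : Sm R w) (hp : Per w) {a g M B : ℝ} (hR : R < a) (ha : 4 ≤ a) (hg : 0 ≤ g)
    (hga : g * (g + 1) ≤ (1 - g / 2) * a ^ 2)
    (hB : ∀ q : ℝ × ℝ, a ≤ q.1 → |w q| ≤ B ∧ ‖iteratedFDeriv ℝ 1 w q‖ ≤ B)
    (h0 : ∀ δ > 0, ∃ s₀ : ℝ, ∀ q : ℝ × ℝ, s₀ < q.1 → |w q| ≤ δ)
    (hM : ∀ q : ℝ × ℝ, a ≤ q.1 → |Lw w q| ≤ M) (m : ℤ) {x : ℝ} (hx : a ≤ x) :
    ‖fc (cs w x) m‖ ≤ ‖fc (cs w a) m‖ * (a ^ g * x ^ (-g)) + 8 * M * maj m := by
  have hM0 : 0 ≤ M := (abs_nonneg _).trans (hM (a, 0) le_rfl)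
  have hy : ∀ z, a ≤ z → HasDerivAt (fun x => fc (cs w x) m) (fc (cs (dd (1, 0) w) z) m) z :=
    fun z hz => h.fc_dx (hR.trans_le hz) m
  have hy1 := fun z (hz : a ≤ z) => h.mode hp (hR.trans_le hz) m ▸ (h.dd (1, 0)).fc_dx (hR.trans_le hz) m
  have hf : ∀ z, a ≤ z → ‖fc (cs (Lw w) z) m‖ ≤ M := fun z hz =>
    fc_norm_le (fun θ => by simpa [cs] using hM (z, θ) hz) m
  have hpos : 0 ≤ ‖fc (cs w a) m‖ * (a ^ g * x ^ (-g)) := by
    have : 0 < a := by linarith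
    have : 0 < x := by linarith
    positivity
  by_cases hm : (m : ℝ) ^ 2 ≤ 1
  · have h1 : m = 0 ∨ m = 1 ∨ m = -1 := by
      have : m ^ 2 ≤ 1 := by exact_mod_cast hm
      have h1 : m ≤ 1 := by nlinarith
      have h2 : -1 ≤ m := by nlinarith
      omega
    have h2 := low (κ := 1 - (m : ℝ) ^ 2 / 2) (B := B) ha (by
      rcases h1 with rfl | rfl | rfl <;> norm_num) hy
      (fun z hz => (hy1 z hz).congr_deriv (by push_cast; ring))
      (fun z hz => ⟨fc_norm_le (fun θ => by simpa [cs] using (hB (z, θ) hz).1) m,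
        fc_norm_le (fun θ => by
          simpa [cs] using (abs_dd (h (z, θ) (hR.trans_le hz)) _ n10).trans (hB (z, θ) hz).2) m⟩) hf hx
    have h3 : 1 / 2 ≤ maj m := one_div_le_one_div_of_le (by positivity) (by linarith)
    nlinarith
  · have h1 : (4 : ℝ) ≤ (m : ℝ) ^ 2 := by
      have h1 : 1 < m ^ 2 := by exact_mod_cast not_le.1 hm
      have h2 : 4 ≤ m ^ 2 := by
        rcases le_or_gt 2 m with h | h
        · nlinarith
        rcases le_or_gt m (-2) with h' | h'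
        · nlinarith
        interval_cases m <;> simp at h1
      exact_mod_cast h2
    have h2 := high (V := (m : ℝ) ^ 2 / 2 - 1) (by linarith) (by linarith) hg hga hy hy1
      (NormedAddGroup.tendsto_nhds_zero.2 fun ε hε => by
        obtain ⟨s₀, hs⟩ := h0 _ (half_pos hε)
        filter_upwards [eventually_gt_atTop s₀] with z hz
        exact (fc_norm_le (fun θ => by simpa [cs] using hs (z, θ) hz) m).trans_lt (half_lt_self hε))
      hf hx
    have h3 : M / ((m : ℝ) ^ 2 / 2 - 1) ≤ 8 * M * maj m := by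
      rw [maj, mul_one_div, div_le_div_iff₀ (by linarith) (by positivity)]
      nlinarith
    rw [← mul_assoc]
    linarith

/-- **the a priori rate** -/
theorem rate (hw : ContDiffOn ℝ ∞ w {q | R < q.1}) (hp : ∀ s θ, w (s, θ + 2 * Real.pi) = w (s, θ))
    (hlim : ∀ (k : ℕ) (δ : ℝ), 0 < δ → ∃ s₀ : ℝ, ∀ q : ℝ × ℝ, s₀ < q.1 →
      ‖iteratedFDeriv ℝ k w q‖ ≤ δ)
    (heq : ∃ C s₀ : ℝ, ∀ q : ℝ × ℝ, s₀ < q.1 → |Lw w q| ≤
      C * (|w q| + ‖iteratedFDeriv ℝ 1 w q‖ + ‖iteratedFDeriv ℝ 2 w q‖) ^ 2)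
    {g : ℝ} (hg0 : 0 ≤ g) (hg : g < 2) (k : ℕ) :
    ∃ C x₀ : ℝ, ∀ q : ℝ × ℝ, x₀ ≤ q.1 → ‖iteratedFDeriv ℝ k w q‖ ≤ C * q.1 ^ (-g) := by
  have h := sm_of hw
  replace hp : Per w := hp
  obtain ⟨C, s₀, heq⟩ := heq
  set g1 := (g + 2) / 2 with hg1
  set g2 := (g1 + 2) / 2 with hg2
  have hg2' : 0 < 1 - g2 / 2 := by linarith
  set a₀ := max (max R s₀ + 1) (max 4 (6 / (1 - g2 / 2))) with ha₀
  have a1 : R < a₀ := by linarith [le_max_left R s₀, le_max_left (max R s₀ + 1) (max 4 (6 / (1 - g2 / 2)))]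
  have a2 : s₀ < a₀ := by linarith [le_max_right R s₀, le_max_left (max R s₀ + 1) (max 4 (6 / (1 - g2 / 2)))]
  have a3 : 4 ≤ a₀ := (le_max_left _ _).trans (le_max_right _ _)
  have a4 : 6 ≤ a₀ * (1 - g2 / 2) := (div_le_iff₀ hg2').1 ((le_max_right _ _).trans (le_max_right _ _))
  have hb : ∀ j, ∃ C : ℝ, ∀ q : ℝ × ℝ, a₀ ≤ q.1 → ‖iteratedFDeriv ℝ j w q‖ ≤ C := fun j => by
    obtain ⟨s, hs⟩ := hlim j 1 one_pos
    exact h.bdd hp a1 j hs
  have hI := fun (θ : ℝ) (hθ : θ < 1) (j : ℕ) => interp (ContinuousLinearMap.fst ℝ ℝ ℝ) (f := w) (a₀ := a₀)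
    (fun q hq => h q (a1.trans_le hq)) hb hθ j
  simp only [ContinuousLinearMap.coe_fst'] at hI
  have hsum : ∀ x, a₀ ≤ x → Summable fun m => ‖fc (cs w x) m‖ := fun x hx => by
    obtain ⟨C0, h0⟩ := hb 0
    obtain ⟨C2, h2⟩ := hb 2
    exact (summable_maj.mul_left (2 * max C0 C2)).of_nonneg_of_le (fun _ => norm_nonneg _)
      (h.fc_le hp (a1.trans_le hx) (fun θ => (h0 (x, θ) hx).trans (le_max_left _ _))
        fun θ => (h2 (x, θ) hx).trans (le_max_right _ _))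
  have hle : ∀ q : ℝ × ℝ, a₀ ≤ q.1 → ‖w q‖ ≤ ∑' m, ‖fc (cs w q.1) m‖ := fun q hq => by
    simpa [cs] using norm_le_tsum_fc (hp.cs q.1) (h.cont (a1.trans_le hq)) (hsum _ hq) q.2
  set Z := ∑' m, maj m with hZ
  have hZ0 : 0 < Z := summable_maj.tsum_pos (fun m => (maj_pos m).le) 0 (maj_pos 0)
  obtain ⟨C0, c0, hC0⟩ := hI (3 / 4) (by norm_num) 0
  obtain ⟨C1, c1, hC1⟩ := hI (3 / 4) (by norm_num) 1
  obtain ⟨C2, c2, hC2⟩ := hI (3 / 4) (by norm_num) 2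
  obtain ⟨C', a₁, hC', hν⟩ := iter (ν := fun x => ∑' m, ‖fc (cs w x) m‖) (a₀ := a₀) (g := g2) (g' := g1)
    (K := 8 * ((|C| + 1) * (C0 + C1 + C2) ^ 2) * Z) (by linarith) (by positivity) (by linarith)
    (by linarith) (fun μ hμ => by
      obtain ⟨s1, h1⟩ := hlim 0 (μ / (2 * Z)) (by positivity)
      obtain ⟨s2, h2⟩ := hlim 2 (μ / (2 * Z)) (by positivity)
      refine ⟨max a₀ (max s1 s2 + 1), fun x hx => ?_⟩
      have hx0 : a₀ ≤ x := (le_max_left _ _).trans hx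
      have hx1 : max s1 s2 < x := by linarith [le_max_right a₀ (max s1 s2 + 1)]
      refine ((hsum x hx0).tsum_le_tsum (h.fc_le hp (a1.trans_le hx0)
        (fun θ => h1 (x, θ) ((le_max_left _ _).trans_lt hx1))
        fun θ => h2 (x, θ) ((le_max_right _ _).trans_lt hx1)) (summable_maj.mul_left _)).trans ?_
      rw [tsum_mul_left, ← hZ]
      exact le_of_eq (by field_simp))
    fun a ha μ hμ hμ1 hν x hx => by
      have hwμ : ∀ q : ℝ × ℝ, a ≤ q.1 → ‖w q‖ ≤ μ := fun q hq => (hle q (ha.trans hq)).trans (hν _ hq)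
      have e : (μ ^ (3 / 4 : ℝ)) ^ 2 = μ * √μ := by
        rw [Real.sqrt_eq_rpow, ← Real.rpow_natCast, ← Real.rpow_mul hμ.le, ← Real.rpow_one_add' hμ.le
          (by norm_num)]
        norm_num
      obtain ⟨B, hB⟩ := hb 1
      have h1 := fun m => mode_le h hp (a := a) (g := g2) (B := max B μ)
        (M := (|C| + 1) * (C0 + C1 + C2) ^ 2 * (μ * √μ)) (a1.trans_le ha) (a3.trans ha) (by linarith)
        (by
          have h1 : a₀ * 1 ≤ a ^ 2 := by nlinarith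
          nlinarith)
        (fun q hq => ⟨(hwμ q hq).trans (le_max_right _ _), (hB q (ha.trans hq)).trans (le_max_left _ _)⟩)
        (fun δ hδ => by simpa using hlim 0 δ hδ) (fun q hq => by
          have b0 := hC0 a ha μ hμ hμ1 hwμ q hq
          have b1 := hC1 a ha μ hμ hμ1 hwμ q hq
          have b2 := hC2 a ha μ hμ hμ1 hwμ q hq
          rw [norm_iteratedFDeriv_zero, Real.norm_eq_abs] at b0
          refine (heq q (a2.trans_le (ha.trans hq))).trans ?_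
          rw [← e, mul_assoc, ← mul_pow]
          exact mul_le_mul (by linarith [le_abs_self C])
            (pow_le_pow_left₀ (by positivity) (by linarith) 2) (by positivity) (by positivity)) m hx
      refine ((hsum x (ha.trans hx)).tsum_le_tsum h1
        (((hsum a ha).mul_right _).add (summable_maj.mul_left _))).trans ?_
      rw [((hsum a ha).mul_right _).tsum_add (summable_maj.mul_left _), tsum_mul_right, tsum_mul_left,
        ← hZ, mul_assoc μ]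
      have : 0 < a := by linarith
      have : 0 < x := by linarith
      exact add_le_add (mul_le_mul_of_nonneg_right (hν a le_rfl) (by positivity)) (le_of_eq (by ring))
  have hg10 : 0 < g1 := by linarith
  obtain ⟨Ck, ck, hCk⟩ := hI (g / g1) (by rw [div_lt_one hg10]; linarith) k
  obtain ⟨a₂, ha₂⟩ := eventually_atTop.1 (((tendsto_rpow_neg_atTop hg10).const_mul C').eventually
    (gt_mem_nhds (show C' * 0 < 1 by simp)))
  refine ⟨Ck * C' ^ (g / g1), max a₀ (max a₁ a₂), fun q hq => ?_⟩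
  simp only [max_le_iff] at hq
  have hq0 : 0 < q.1 := by linarith [hq.1]
  have := hCk q.1 hq.1 (C' * q.1 ^ (-g1)) (by positivity) (ha₂ _ hq.2.2).le (fun z hz =>
    (hle z (hq.1.trans hz)).trans ((hν _ (hq.2.1.trans hz)).trans (mul_le_mul_of_nonneg_left
      (Real.rpow_le_rpow_of_nonpos hq0 hz (by linarith)) hC'.le))) q le_rfl
  rwa [Real.mul_rpow hC'.le (by positivity), ← Real.rpow_mul hq0.le,
    show -g1 * (g / g1) = -g by field_simp, ← mul_assoc] at this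

end Crest.Agent.N250.Ra
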